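import Vale.Agent.P281.H152.RC.Spec
import Vale.Agent.P281.H751.HKT.Rs

/-!
# P281, RADC (helper152): R5a (spare copy)
-/

open Vale.Agent.P281 Vale.Agent.P281.H64 Vale.Agent.P281.H64.TK Vale.Agent.P281.H83.HK
open Vale.Agent.P281.H83.HKT

noncomputable section

namespace Vale.Agent.P281.H152.RC

theorem alg0 : AlgStmt := by
  intro a h ε u hh hε hu h0 x y k
  rw [H751.HKT.W4_rs hh h0]
  have h1 : H751.HKT.fc u = (ε : ℂ) • (1 : Matrix (Fin a) (Fin a) ℂ) := by
    ext j k
    rw [H751.HKT.fc, Matrix.submatrix_apply, id, hu, Matrix.smul_apply, Matrix.one_apply]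
    split_ifs <;> simp
  rw [h1, Matrix.det_smul, Matrix.det_one, Fintype.card_fin, mul_one, norm_pow,
    Complex.norm_real, Real.norm_eq_abs, abs_of_pos hε, ← pow_mul, mul_comm a 2]

end Vale.Agent.P281.H152.RC
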