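import Vale.Agent.P281.H152.RC.Spec
import Vale.Agent.P281.H191.HKT.Th
import Vale.Agent.P281.H834.HK.Lat2

/-!
# P281, project RADC (helper152): R7, the algebra: one good fibre gives the rational radical
-/

open Set Filter Metric MeasureTheory Vale.Agent.P272.K
open scoped Topology ContDiff ComplexConjugate ComplexOrder

set_option linter.unusedSectionVars false

noncomputable section

namespace Vale.Agent.P281.H152.RC

open Vale.Agent.P281.H64.TK Vale.Agent.P281.H64.TK.TS Vale.Agent.P281.H83.HK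
open Vale.Agent.P281.H83.HKT (dt uu thj lst W4 thl Hol1 GenU bT dF RatRad)
open Vale.Agent.P281.H747.TS (l2_ext cl_of_exact cl_sum cl_b sum_ap exact_congr exact_sub cl_congr)
open Vale.Agent.P281.H834.HK (hol2_zero hol2_add_smul tf_add_smul tf_zero)
open Vale.Agent.P281.H191.HK (bW_class bW_sum bW_comm bW_zero exact_self)

section
variable {d : ℕ} {E Γ : Type} [TopologicalSpace E] [Group Γ] [MulAction Γ E] {S : Sheets d E Γ}

theorem hol2_sum {n : ℕ} (x : Fin n → ℂ) {σ : Fin n → Fin S.N → Cm d → Matrix (Fin d) (Fin d) ℂ}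
    (h : ∀ k, Hol2 S (σ k)) : Hol2 S (fun i z => ∑ k, x k • σ k i z) := by
  classical
  have h1 : ∀ s : Finset (Fin n), Hol2 S (fun i z => ∑ k ∈ s, x k • σ k i z) := by
    intro s
    induction s using Finset.induction_on with
    | empty => simpa using (hol2_zero (S := S))
    | insert k s hk ih =>
      have e : (fun i z => ∑ j ∈ insert k s, x j • σ j i z) =
          fun (i : Fin S.N) (z : Cm d) => (∑ j ∈ s, x j • σ j i z) + x k • σ k i z := by
        funext i z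
        rw [Finset.sum_insert hk, add_comm]
      rw [e]
      exact hol2_add_smul ih (h k) (x k)
  exact h1 Finset.univ

theorem tf_sum {n : ℕ} (x : Fin n → ℂ) (σ : Fin n → Matrix (Fin d) (Fin d) ℂ) :
    tf (∑ k, x k • σ k) = ∑ k, x k • tf (σ k) := by
  classical
  have h1 : ∀ s : Finset (Fin n), tf (∑ k ∈ s, x k • σ k) = ∑ k ∈ s, x k • tf (σ k) := by
    intro s
    induction s using Finset.induction_on with
    | empty => simpa using (tf_zero (d := d))
    | insert k s hk ih =>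
      rw [Finset.sum_insert hk, Finset.sum_insert hk, add_comm, tf_add_smul, ih]
      exact l2_ext fun u v => add_comm ((∑ j ∈ s, x j • tf (σ j)) u v) ((x k • tf (σ k)) u v)
  exact h1 Finset.univ

theorem bW_cjs [Subsingleton Γ] {α β c : Fin S.N → Cm d → L2 d} (ha : Real2 S α)
    (hc : Real2 S c) : bW S α (cjs β) c = conj (bW S α β c) := by
  unfold bW Sheets.int
  rw [map_sum]
  refine Finset.sum_congr rfl fun i _ => ?_
  rw [← integral_conj]
  refine setIntegral_congr_fun (H840.TS.meas_P S i) fun z hz => ?_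
  have hz3 : z ∈ ball (0 : Cm d) 3 := by
    have : ‖z‖ < 1 := hz.1
    simp only [mem_ball, dist_zero_right]
    linarith
  exact H864.HK.W3_conj (fun u v => (Complex.conj_eq_iff_im.2 (ha i z hz3 u v)).symm)
    (fun u v => rfl) (fun u v => (Complex.conj_eq_iff_im.2 (hc i z hz3 u v)).symm)

end

/-- **R7, the algebra** -/
theorem core {a D h : ℕ} {E₀ Γ₀ E₁ Γ₁ : Type} [TopologicalSpace E₀] [Group Γ₀] [MulAction Γ₀ E₀]
    [Subsingleton Γ₀] [ContinuousConstSMul Γ₀ E₀] [TopologicalSpace E₁] [Group Γ₁]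
    [MulAction Γ₁ E₁] [Subsingleton Γ₁] [ContinuousConstSMul Γ₁ E₁] {S₀ : Sheets D E₀ Γ₀}
    {S₁ : Sheets h E₁ Γ₁} {u : Fin S₀.N → Cm D → Matrix (Fin a) (Fin D) ℂ}
    {s w₀ : Fin S₀.N → Cm D → Matrix (Fin D) (Fin D) ℂ}
    {w₁ : Fin S₁.N → Cm h → Matrix (Fin h) (Fin h) ℂ}
    (r : (Fin S₀.N → Cm D → L2 D) → (Fin S₁.N → Cm h → L2 h)) (hD : 1 < D) (hh : 2 ≤ h)
    (hG : GenU S₀ u s) (hkc : Cl2 S₀ (kw w₀)) (hkr : Real2 S₀ (kw w₀))
    (hts : ∀ s, Hol2 S₀ s → Cl2 S₀ (ts s)) (hcj : ∀ α, Cl2 S₀ α → Cl2 S₀ (cjs α))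
    (hsT : bT S₀ u (ts s) (cjs (ts s)) (kw w₀) ≠ 0)
    (hA : bT S₀ u (kw w₀) (kw w₀) (kw w₀) ≠ 0)
    (hm : ∀ (m : Matrix (Fin a) (Fin a) ℂ) (α : Fin S₀.N → Cm D → L2 D), m.transpose = -m →
      Cl2 S₀ α → bT S₀ u (ts fun i z => uu m (u i z)) α (kw w₀) = 0)
    (r1 : ∀ x, Cl2 S₀ x → Cl2 S₁ (r x)) (r2 : ∀ x, Real2 S₀ x → Real2 S₁ (r x))
    (r3 : ∀ x, Cl2 S₀ x → IsInt S₀ x → IsInt S₁ (r x))
    (r4 : ∀ x, Cl2 S₀ x → Exact S₀ x → Exact S₁ (r x))
    (rsum : ∀ (n : ℕ) (x : Fin n → ℂ) (b : Fin n → Fin S₀.N → Cm D → L2 D),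
      r (fun i z => ∑ k, x k • b k i z) = fun i z => ∑ k, x k • r (b k) i z)
    (rsub : ∀ α β, r (fun i z => α i z - β i z) = fun i z => r α i z - r β i z)
    (rcong : ∀ α β, (∀ i, ∀ z ∈ ball (0 : Cm D) 3, α i z = β i z) →
      ∀ i, ∀ z ∈ ball (0 : Cm h) 3, r α i z = r β i z)
    (rk : r (kw w₀) = kw w₁) (hkc₁ : Cl2 S₁ (kw w₁)) (hkr₁ : Real2 S₁ (kw w₁))
    (hcj₁ : ∀ s, Hol2 S₁ s → Cl2 S₁ (ts s) ∧ Cl2 S₁ (cjs (ts s)))
    (hQ : bW S₁ (kw w₁) (kw w₁) (kw w₁) ≠ 0) {N₀ N₁ : ℕ} (M₀ : Mark2 S₀ N₀) (M₁ : Mark2 S₁ N₁)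
    (prop : ∀ k l, bT S₀ u (kw w₀) (kw w₀) (kw w₀) * bW S₁ (r (M₀.b k)) (r (M₀.b l)) (kw w₁) =
      bT S₀ u (M₀.b k) (M₀.b l) (kw w₀) * bW S₁ (kw w₁) (kw w₁) (kw w₁))
    (σ : Fin N₀ → Fin S₀.N → Cm D → Matrix (Fin D) (Fin D) ℂ) (hσ : ∀ k, Hol2 S₀ (σ k))
    (hσT : ∀ k, bT S₀ u (M₀.b k) (cjs (ts s)) (kw w₀) = bT S₀ u (ts (σ k)) (cjs (ts s)) (kw w₀))
    (hσW : ∀ k s', Hol2 S₁ s' → bW S₁ (r (M₀.b k)) (cjs (ts s')) (kw w₁) =
      bW S₁ (r (ts (σ k))) (cjs (ts s')) (kw w₁))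
    (r0 : ∀ m : Matrix (Fin a) (Fin a) ℂ, ∀ i, ∀ z ∈ ball (0 : Cm h) 3,
      r (ts fun i z => uu m (u i z)) i z = 0)
    (hi : ∀ α, Cl2 S₁ α → Real2 S₁ α → bW S₁ α (kw w₁) (kw w₁) = 0 →
      (∀ s', Hol2 S₁ s' → bW S₁ α (ts s') (kw w₁) = 0) → (bW S₁ α α (kw w₁)).re = 0 →
      Exact S₁ α) : RatRad S₀ u (kw w₀) := by
  classical
  have hu := hG.one
  have hD0 : 0 < D := by omega
  have hh0 : 0 < h := by omega
  -- the integer matrix
  have hrb : ∀ k, Cl2 S₁ (r (M₀.b k)) := fun k => r1 _ (M₀.closed k)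
  choose J hJ using fun (l : Fin N₁) (k : Fin N₀) =>
    M₁.intcl (r (M₀.b k)) (hrb k) (r3 _ (M₀.closed k) (M₀.int k)) l
  refine ⟨N₀, N₁, M₀, Matrix.of J, fun x => ?_⟩
  set xc : Fin N₀ → ℂ := fun k => (x k : ℂ) with hxc
  set α : Fin S₀.N → Cm D → L2 D := fun i z => ∑ k, xc k • M₀.b k i z with hα
  have hαc : Cl2 S₀ α := H747.TS.cl2_sum Finset.univ xc fun k _ => M₀.closed k
  have hαr : Real2 S₀ α := by
    intro i z hz p q
    have e : α i z p q = ∑ k, xc k * M₀.b k i z p q := by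
      show (∑ k, xc k • M₀.b k i z) p q = _
      rw [sum_ap]
      rfl
    rw [e, Complex.im_sum]
    refine Finset.sum_eq_zero fun k _ => ?_
    rw [Complex.mul_im, M₀.real k i z hz p q, hxc]
    simp
  have hrα : r α = fun i z => ∑ k, xc k • r (M₀.b k) i z := rsum N₀ xc M₀.b
  have hrαc : Cl2 S₁ (r α) := r1 α hαc
  -- the class of the restriction
  have hcl : M₁.cl (r α) = fun l => (((Matrix.of J).map (Int.cast : ℤ → ℝ)).mulVec x l : ℂ) := by
    rw [hrα, cl_sum M₁ Finset.univ xc fun k _ => hrb k]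
    funext l
    rw [Finset.sum_apply]
    show ∑ k, xc k * M₁.cl (r (M₀.b k)) l = _
    rw [Matrix.mulVec, dotProduct, Complex.ofReal_sum]
    refine Finset.sum_congr rfl fun k _ => ?_
    rw [hJ l k]
    simp [hxc, mul_comm]
  have hexJ : Exact S₁ (r α) ↔ ((Matrix.of J).map (Int.cast : ℤ → ℝ)).mulVec x = 0 := by
    constructor
    · intro he
      have h1 := cl_of_exact M₁ hrαc he
      rw [hcl] at h1
      funext l
      have h2 := congrFun h1 l
      simpa using h2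
    · intro he
      have h1 : M₁.cl (r α) = 0 := by
        rw [hcl, he]
        funext l
        simp
      have h2 := M₁.ex (r α) hrαc
      rw [h1] at h2
      refine exact_congr h2 fun i z _ => l2_ext fun p q => ?_
      show r α i z p q - (∑ k, (0 : Fin N₁ → ℂ) k • M₁.b k i z) p q = r α i z p q
      rw [sum_ap]
      have h3 : ∀ k, ((0 : Fin N₁ → ℂ) k • M₁.b k i z) p q = 0 := fun k => zero_mul _
      simp only [h3, Finset.sum_const_zero, sub_zero]
  -- the two forms on `α` and the `b l`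
  set A := bT S₀ u (kw w₀) (kw w₀) (kw w₀) with hAdef
  set Q := bW S₁ (kw w₁) (kw w₁) (kw w₁) with hQdef
  have hTα : ∀ y, Cl2 S₀ y → bT S₀ u α y (kw w₀) = ∑ k, xc k * bT S₀ u (M₀.b k) y (kw w₀) :=
    fun y hy => H191.HKT.bT_sum hD0 hu Finset.univ xc (fun k _ => M₀.closed k) hy hkc
  have hWα : ∀ y, Cl2 S₁ y → bW S₁ (r α) y (kw w₁) =
      ∑ k, xc k * bW S₁ (r (M₀.b k)) y (kw w₁) := fun y hy => by
    rw [hrα]
    exact bW_sum hh0 Finset.univ xc (fun k _ => hrb k) hy hkc₁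
  have hAQ : ∀ l, A * bW S₁ (r α) (r (M₀.b l)) (kw w₁) = bT S₀ u α (M₀.b l) (kw w₀) * Q := by
    intro l
    rw [hWα _ (hrb l), hTα _ (M₀.closed l), Finset.mul_sum, Finset.sum_mul]
    refine Finset.sum_congr rfl fun k _ => ?_
    have := prop k l
    linear_combination xc k * this
  have hreal : ∀ l, bT S₀ u α (M₀.b l) (kw w₀) =
      ((∑ k, x k * (bT S₀ u (M₀.b k) (M₀.b l) (kw w₀)).re : ℝ) : ℂ) := by
    intro l
    rw [hTα _ (M₀.closed l), Complex.ofReal_sum]
    refine Finset.sum_congr rfl fun k _ => ?_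
    have h1 : bT S₀ u (M₀.b k) (M₀.b l) (kw w₀) =
        ((bT S₀ u (M₀.b k) (M₀.b l) (kw w₀)).re : ℂ) :=
      (Complex.conj_eq_iff_re.1 (H191.HKT.bT_conj (M₀.real k) (M₀.real l) hkr)).symm
    rw [h1]
    simp [hxc]
  rw [← hexJ]
  constructor
  · -- the radical
    intro hx
    have hT0 : ∀ l, bT S₀ u α (M₀.b l) (kw w₀) = 0 := fun l => by
      rw [hreal l, hx l, Complex.ofReal_zero]
    -- all closed forms
    have hTy : ∀ y, Cl2 S₀ y → bT S₀ u α y (kw w₀) = 0 := by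
      intro y hy
      have h1 : bT S₀ u y α (kw w₀) = ∑ l, M₀.cl y l * bT S₀ u (M₀.b l) α (kw w₀) := by
        rw [← H191.HKT.bT_sum hD0 hu Finset.univ (M₀.cl y) (fun k _ => M₀.closed k) hαc hkc]
        exact H191.HKT.bT_class hu hy hαc hkc
          (H747.TS.cl2_sum Finset.univ (M₀.cl y) fun k _ => M₀.closed k) hαc hkc (M₀.ex y hy)
          (exact_self α) (exact_self _)
      rw [H191.HKT.bT_comm hD, h1]
      refine Finset.sum_eq_zero fun l _ => ?_
      rw [H191.HKT.bT_comm hD, hT0 l, mul_zero]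
    have hWy : ∀ y, Cl2 S₀ y → bW S₁ (r α) (r y) (kw w₁) = 0 := by
      intro y hy
      have h0 : ∀ l, bW S₁ (r α) (r (M₀.b l)) (kw w₁) = 0 := fun l => by
        have h1 := hAQ l
        rw [hT0 l, zero_mul] at h1
        exact (mul_eq_zero.1 h1).resolve_left hA
      have hy1 : Cl2 S₀ fun i z => ∑ l, M₀.cl y l • M₀.b l i z :=
        H747.TS.cl2_sum Finset.univ (M₀.cl y) fun k _ => M₀.closed k
      have h2 : Exact S₁ fun i z => r y i z - r (fun i z => ∑ l, M₀.cl y l • M₀.b l i z) i z := by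
        have h3 := r4 _ (H747.TS.cl2_sub hy hy1) (M₀.ex y hy)
        rw [rsub] at h3
        exact h3
      have h4 : bW S₁ (r y) (r α) (kw w₁) = ∑ l, M₀.cl y l * bW S₁ (r (M₀.b l)) (r α) (kw w₁) := by
        rw [← bW_sum hh0 Finset.univ (M₀.cl y) (fun k _ => hrb k) hrαc hkc₁, ← rsum]
        exact bW_class (r1 y hy) hrαc hkc₁ (r1 _ hy1) hrαc hkc₁ h2 (exact_self _) (exact_self _)
      rw [bW_comm (by omega), h4]
      refine Finset.sum_eq_zero fun l _ => ?_
      rw [bW_comm (by omega), h0 l, mul_zero]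
    -- the (2,0) part
    set sα : Fin S₀.N → Cm D → Matrix (Fin D) (Fin D) ℂ := fun i z => ∑ k, xc k • σ k i z with hsα
    have hsαh : Hol2 S₀ sα := hol2_sum xc hσ
    have htsα : ts sα = fun i z => ∑ k, xc k • ts (σ k) i z := by
      funext i z
      exact tf_sum xc fun k => σ k i z
    obtain ⟨c₀, m, hmm, hspan⟩ := hG.span2 sα hsαh
    have hcs : Cl2 S₀ (cjs (ts s)) := hcj _ (hts s hG.form)
    have h1 : bT S₀ u (ts sα) (cjs (ts s)) (kw w₀) = 0 := by
      have h2 := hTy _ hcs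
      rw [hTα _ hcs] at h2
      rw [htsα, H191.HKT.bT_sum hD0 hu Finset.univ xc (fun k _ => hts _ (hσ k)) hcs hkc, ← h2]
      exact Finset.sum_congr rfl fun k _ => by rw [hσT k]
    have huum : Hol2 S₀ fun i z => uu m (u i z) := by
      have h2 := hol2_add_smul hsαh hG.form (-c₀)
      refine ⟨fun i j k => ?_, fun i z hz => ?_, fun i z hz j k l => ?_,
        fun i j z hz z' hz' θ t1 t2 t3 => ?_⟩
      · refine (h2.hol i j k).congr fun z hz => ?_
        rw [hspan i z hz]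
        simp
      · have h3 := h2.alt i z hz
        rw [hspan i z hz] at h3
        simpa using h3
      · have h3 := h2.closed i z hz j k l
        have h4 : ∀ j k, (fun z => (sα i z + (-c₀) • s i z) j k) =ᶠ[𝓝 z]
            fun z => uu m (u i z) j k := by
          intro j k
          filter_upwards [isOpen_ball.mem_nhds hz] with y hy
          rw [hspan i y hy]
          simp
        unfold dd at h3 ⊢
        rw [(h4 j k).fderiv_eq, (h4 k l).fderiv_eq, (h4 l j).fderiv_eq] at h3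
        exact h3
      · have h3 := h2.change i j z hz z' hz' θ t1 t2 t3
        rw [hspan i z hz, hspan j z' hz'] at h3
        simpa using h3
    have h5 : bT S₀ u (ts sα) (cjs (ts s)) (kw w₀) =
        bT S₀ u (fun i z => ts (fun i z => uu m (u i z)) i z + c₀ • ts s i z) (cjs (ts s))
          (kw w₀) := by
      unfold bT
      refine H594.TS.int_congr S₀ fun i z hz => ?_
      have h6 : ts sα i z = ts (fun i z => uu m (u i z)) i z + c₀ • ts s i z := by
        show tf (sα i z) = tf (uu m (u i z)) + c₀ • tf (s i z)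
        rw [hspan i z hz, add_comm, tf_add_smul]
      rw [h6]
    rw [H191.HKT.bT_add_smul hD0 hu (hts _ huum) (hts _ hG.form) hcs hkc, hm m _ hmm hcs,
      zero_add] at h5
    rw [h1] at h5
    have hc₀ : c₀ = 0 := (mul_eq_zero.1 h5.symm).resolve_right hsT
    -- the restriction of the (2,0) part vanishes
    have hr0 : ∀ i, ∀ z ∈ ball (0 : Cm h) 3, r (ts sα) i z = 0 := by
      intro i z hz
      rw [rcong (ts sα) (ts fun i z => uu m (u i z)) (fun i z hz => ?_) i z hz]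
      · exact r0 m i z hz
      · show tf (sα i z) = tf (uu m (u i z))
        rw [hspan i z hz, hc₀, zero_smul, zero_add]
    have hW0 : ∀ s', Hol2 S₁ s' → bW S₁ (r α) (cjs (ts s')) (kw w₁) = 0 := by
      intro s' hs'
      have h7 := (hcj₁ s' hs').2
      rw [hWα _ h7]
      have h8 : ∀ k, xc k * bW S₁ (r (M₀.b k)) (cjs (ts s')) (kw w₁) =
          xc k * bW S₁ (r (ts (σ k))) (cjs (ts s')) (kw w₁) := fun k => by rw [hσW k s' hs']
      rw [Finset.sum_congr rfl fun k _ => h8 k,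
        ← bW_sum hh0 Finset.univ xc (fun k _ => r1 _ (hts _ (hσ k))) h7 hkc₁, ← rsum, ← htsα]
      rw [← bW_zero hh0 (cjs (ts s')) (kw w₁)]
      unfold bW
      refine H594.TS.int_congr S₁ fun i z hz => ?_
      rw [hr0 i z hz]
    refine hi (r α) hrαc (r2 α hαr) ?_ (fun s' hs' => ?_) ?_
    · have := hWy (kw w₀) hkc
      rwa [rk] at this
    · have h7 := bW_cjs (β := ts s') (r2 α hαr) hkr₁
      rw [hW0 s' hs'] at h7
      have h8 := congrArg conj h7
      rw [map_zero, Complex.conj_conj] at h8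
      exact h8.symm
    · rw [hWy α hαc]
      rfl
  · intro he l
    have h1 : bW S₁ (r α) (r (M₀.b l)) (kw w₁) = 0 := by
      rw [← bW_zero hh0 (r (M₀.b l)) (kw w₁)]
      refine bW_class hrαc (hrb l) hkc₁ H747.TS.cl2_zero (hrb l) hkc₁ ?_ (exact_self _)
        (exact_self _)
      exact exact_congr he fun i z _ => l2_ext fun p q => by
        show r α i z p q = r α i z p q - 0
        rw [sub_zero]
    have h2 := hAQ l
    rw [h1, mul_zero] at h2
    have h3 := (mul_eq_zero.1 h2.symm).resolve_right hQ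
    rw [hreal l] at h3
    exact_mod_cast h3

end Vale.Agent.P281.H152.RC
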