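import Vale.Agent.P281.H83.HKT.Spec
import Vale.Agent.P281.H751.HKT.Rs
import Vale.Agent.P281.H842.HKT.Fub

/-!
# P281, project RADC (helper152): the rational radical, by one fibre of the additive functions;
definitions (FROZEN)

`S : Sheets (a + h) E K`, `F : E → ℂ^a` additive with periods `c : K → ℂ^a`.
-/

open Set Filter Metric MeasureTheory Vale.Agent.P272.K
open scoped Topology ContDiff ComplexConjugate ComplexOrder

set_option linter.unusedSectionVars false

noncomputable section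

namespace Vale.Agent.P281.H152.RC

open Vale.Agent.P281.H64 (Mark)
open Vale.Agent.P281.H64.TK Vale.Agent.P281.H64.TK.TS
open Vale.Agent.P281.H399.QT (One1 Qs pj quo)
open Vale.Agent.P281.H842.HKT (p1 p2 ap pe)
open Vale.Agent.P281.H751.HKT (rs)

/-- The fibre of `F` over `t`. -/
def Fb {E : Type} {a : ℕ} (F : E → Fin a → ℂ) (t : Fin a → ℂ) : Type := {e : E // F e = t}

section
variable {E : Type} {a : ℕ} {F : E → Fin a → ℂ} {t : Fin a → ℂ}

instance [TopologicalSpace E] : TopologicalSpace (Fb F t) :=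
  inferInstanceAs (TopologicalSpace {e : E // F e = t})

theorem nhds_subtype_eq_comap' [TopologicalSpace E] (x : Fb F t) :
    𝓝 x = Filter.comap (fun y : Fb F t => y.1) (𝓝 x.1) := nhds_subtype_eq_comap

instance [TopologicalSpace E] [T2Space E] : T2Space (Fb F t) :=
  inferInstanceAs (T2Space {e : E // F e = t})

instance : MulAction One1 (Fb F t) where
  smul _ x := x
  one_smul _ := rfl
  mul_smul _ _ _ := rfl

theorem fb_act (γ : One1) (m : Fb F t) : γ • m = m := rfl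

instance [TopologicalSpace E] : ContinuousConstSMul One1 (Fb F t) := ⟨fun _ => continuous_id⟩

/-- The inclusion. -/
def inF (F : E → Fin a → ℂ) (t : Fin a → ℂ) (e : Fb F t) : E := e.1

theorem inF_cont [TopologicalSpace E] : Continuous (inF F t) := continuous_subtype_val

theorem inF_inj : Function.Injective (inF F t) := Subtype.val_injective

end

/-- The first `n` sheets are adapted to `F` near `t₀`: `F = t₀ + ε p₁`. -/
structure Adp {a h : ℕ} {E K : Type} [TopologicalSpace E] [Group K] [MulAction K E]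
    (S : Sheets (a + h) E K) (F : E → Fin a → ℂ) (c : K → Fin a → ℂ) (t₀ : Cm a) (ε : ℝ) (n : ℕ) :
    Prop where
  pos : 0 < ε
  npos : 0 < n
  le : n ≤ S.N
  eq : ∀ i : Fin n, ∀ z ∈ ball (0 : Cm (a + h)) 3,
    F (S.σ (Fin.castLE le i) z) = t₀ + (ε : ℂ) • p1 z
  cover : ∀ e, ‖F e - t₀‖ < ε → ∃ i : Fin n, ∃ z ∈ ball (0 : Cm (a + h)) 1,
    S.σ (Fin.castLE le i) z = e
  add : ∀ (k : K) e, F (k • e) = F e + c k
  inj : ∀ k : K, k ≠ 1 → 6 * ε ≤ ‖c k‖

section
variable {a h : ℕ} {E K : Type} [TopologicalSpace E] [Group K] [MulAction K E]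
  {S : Sheets (a + h) E K} {F : E → Fin a → ℂ} {c : K → Fin a → ℂ} {t₀ : Cm a} {ε : ℝ} {n : ℕ}

/-- The sheets of the fibre over `t₀ + ε t`: the slices of the adapted sheets. -/
def fbσ (hA : Adp S F c t₀ ε n) {t : Cm a} (ht : t ∈ ball (0 : Cm a) 1) (i : Fin n) (z : Cm h) :
    Fb F (t₀ + (ε : ℂ) • t) :=
  ⟨S.σ (Fin.castLE hA.le i) (ap t (if ‖z‖ < 3 then z else 0)), by
    have ht3 : t ∈ ball (0 : Cm a) 3 := ball_subset_ball (by norm_num) ht
    have hz3 : (if ‖z‖ < 3 then z else 0) ∈ ball (0 : Cm h) 3 := by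
      split_ifs with h1
      · exact mem_ball_zero_iff.2 h1
      · simp
    rw [hA.eq i _ (H842.HKT.ap_mem ht3 hz3), H842.HKT.p1_ap]⟩

theorem fbσ_val (hA : Adp S F c t₀ ε n) {t : Cm a} (ht : t ∈ ball (0 : Cm a) 1) (i : Fin n)
    {z : Cm h} (hz : z ∈ ball (0 : Cm h) 3) :
    (fbσ hA ht i z).1 = S.σ (Fin.castLE hA.le i) (ap t z) := by
  show S.σ (Fin.castLE hA.le i) (ap t (if ‖z‖ < 3 then z else 0)) = _
  rw [if_pos (mem_ball_zero_iff.1 hz)]

theorem eq_of_act (hA : Adp S F c t₀ ε n) {k : K} {i j : Fin n} {z w : Cm (a + h)}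
    (hz : z ∈ ball (0 : Cm (a + h)) 3) (hw : w ∈ ball (0 : Cm (a + h)) 3)
    (h : k • S.σ (Fin.castLE hA.le i) z = S.σ (Fin.castLE hA.le j) w) : k = 1 ∧ p1 z = p1 w := by
  have h1 : F (k • S.σ (Fin.castLE hA.le i) z) = F (S.σ (Fin.castLE hA.le j) w) := by rw [h]
  rw [hA.add, hA.eq i z hz, hA.eq j w hw] at h1
  have h2 : c k = (ε : ℂ) • (p1 w - p1 z) := by
    rw [smul_sub]
    have h3 : (ε : ℂ) • p1 z + c k = (ε : ℂ) • p1 w := by
      have := h1
      rw [add_assoc] at this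
      exact add_left_cancel this
    rw [← h3]
    abel
  have hpz : ‖p1 z‖ < 3 := by
    have := ((H842.HKT.mem_ball_iff z 3).1 hz).1
    exact mem_ball_zero_iff.1 this
  have hpw : ‖p1 w‖ < 3 := by
    have := ((H842.HKT.mem_ball_iff w 3).1 hw).1
    exact mem_ball_zero_iff.1 this
  have hk : k = 1 := by
    by_contra hk
    have h4 := hA.inj k hk
    have h5 : ‖c k‖ < 6 * ε := by
      rw [h2, norm_smul, Complex.norm_real, Real.norm_of_nonneg hA.pos.le]
      have h6 : ‖p1 w - p1 z‖ < 6 := by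
        have := norm_sub_le (p1 w) (p1 z)
        linarith
      nlinarith [hA.pos]
    linarith
  refine ⟨hk, ?_⟩
  subst hk
  have h7 : c (1 : K) = 0 := by
    have h8 := hA.add 1 (S.σ (Fin.castLE hA.le i) z)
    rw [one_smul] at h8
    have : F (S.σ (Fin.castLE hA.le i) z) + 0 = F (S.σ (Fin.castLE hA.le i) z) + c 1 := by
      rw [add_zero]
      exact h8
    exact (add_left_cancel this).symm
  rw [h7] at h2
  have h9 := smul_eq_zero.1 h2.symm
  rcases h9 with h9 | h9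
  · exact absurd (by exact_mod_cast h9) hA.pos.ne'
  · exact (sub_eq_zero.1 h9).symm

theorem ap_mem3 {t : Cm a} (ht : t ∈ ball (0 : Cm a) 1) {z : Cm h} (hz : z ∈ ball (0 : Cm h) 3) :
    ap t z ∈ ball (0 : Cm (a + h)) 3 :=
  H842.HKT.ap_mem (ball_subset_ball (by norm_num) ht) hz

theorem p1_eq (hA : Adp S F c t₀ ε n) {t : Cm a} {i : Fin n} {v : Cm (a + h)}
    (hv : v ∈ ball (0 : Cm (a + h)) 3)
    (h1 : F (S.σ (Fin.castLE hA.le i) v) = t₀ + (ε : ℂ) • t) : p1 v = t := by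
  rw [hA.eq i v hv] at h1
  have h2 : (ε : ℂ) • p1 v = (ε : ℂ) • t := add_left_cancel h1
  have h3 : (ε : ℂ) • (p1 v - t) = 0 := by rw [smul_sub, h2, sub_self]
  rcases smul_eq_zero.1 h3 with h4 | h4
  · exact absurd (by exact_mod_cast h4) hA.pos.ne'
  · exact sub_eq_zero.1 h4

theorem fb_ext {x y : Fb F t₀} (h : x.1 = y.1) : x = y := Subtype.ext h

theorem fbσ_cont (hA : Adp S F c t₀ ε n) {t : Cm a} (ht : t ∈ ball (0 : Cm a) 1) (i : Fin n)
    {z : Cm h} (hz : z ∈ ball (0 : Cm h) 3) : ContinuousAt (fbσ hA ht i) z := by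
  have h1 : ContinuousAt (fun u : Cm h => S.σ (Fin.castLE hA.le i) (ap t u)) z := by
    have h2 : ContinuousAt (S.σ (Fin.castLE hA.le i)) (ap t z) :=
      (S.map_nhds _ _ (ap_mem3 ht hz)).le
    have h3 : Continuous fun u : Cm h => ap t u :=
      (pe a h).symm.continuous.comp (continuous_const.prodMk continuous_id)
    exact ContinuousAt.comp (f := fun u : Cm h => ap t u) h2 h3.continuousAt
  rw [ContinuousAt, nhds_subtype_eq_comap' (fbσ hA ht i z), tendsto_comap_iff]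
  have h4 : (fun u => (fbσ hA ht i u).1) =ᶠ[𝓝 z]
      fun u : Cm h => S.σ (Fin.castLE hA.le i) (ap t u) := by
    filter_upwards [isOpen_ball.mem_nhds hz] with u hu
    exact fbσ_val hA ht i hu
  refine Tendsto.congr' (EventuallyEq.symm h4) ?_
  rw [fbσ_val hA ht i hz]
  exact h1

/-- The fibre over `t₀ + ε t`. -/
def fibS [T2Space E] (hA : Adp S F c t₀ ε n) {t : Cm a} (ht : t ∈ ball (0 : Cm a) 1) :
    Sheets h (Fb F (t₀ + (ε : ℂ) • t)) One1 where
  N := n
  σ := fbσ hA ht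
  map_nhds i z hz := by
    refine le_antisymm (fbσ_cont hA ht i hz) ?_
    intro V hV
    have hV' : fbσ hA ht i ⁻¹' V ∈ 𝓝 z := hV
    obtain ⟨U, hUV, hU, hzU⟩ := _root_.mem_nhds_iff.1 hV'
    have hW : {v : Cm (a + h) | v ∈ ball (0 : Cm (a + h)) 3 ∧ p2 v ∈ U} ∈ 𝓝 (ap t z) := by
      refine (isOpen_ball.inter (hU.preimage ?_)).mem_nhds ⟨ap_mem3 ht hz, ?_⟩
      · exact continuous_snd.comp (pe a h).continuous
      · show p2 (ap t z) ∈ U
        rwa [H842.HKT.p2_ap]
    have h1 := Filter.image_mem_map (m := S.σ (Fin.castLE hA.le i)) hW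
    rw [S.map_nhds _ _ (ap_mem3 ht hz)] at h1
    rw [nhds_subtype_eq_comap', fbσ_val hA ht i hz]
    refine ⟨_, h1, ?_⟩
    rintro e ⟨v, ⟨hv, hv2⟩, hve⟩
    have h2 : F (S.σ (Fin.castLE hA.le i) v) = t₀ + (ε : ℂ) • t := by rw [hve]; exact e.2
    have h3 := p1_eq hA hv h2
    have hv2' : p2 v ∈ ball (0 : Cm h) 3 := ((H842.HKT.mem_ball_iff v 3).1 hv).2
    have h4 : e = fbσ hA ht i (p2 v) := by
      refine fb_ext ?_
      have h5 : ap t (p2 v) = v := by
        rw [← h3]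
        exact H842.HKT.ap_p v
      rw [fbσ_val hA ht i hv2', h5]
      exact hve.symm
    rw [h4]
    exact hUV hv2
  inj i z hz w hw γ hh := by
    rw [fb_act] at hh
    have h1 := congrArg Subtype.val hh
    have h1' : (fbσ hA ht i z).1 = (fbσ hA ht i w).1 := h1
    rw [fbσ_val hA ht i hz, fbσ_val hA ht i hw] at h1'
    have h2 := (S.inj _ _ (ap_mem3 ht hz) _ (ap_mem3 ht hw) 1 (by rw [one_smul]; exact h1')).2
    refine ⟨Subsingleton.elim _ _, ?_⟩
    have h3 := congrArg p2 h2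
    rwa [H842.HKT.p2_ap, H842.HKT.p2_ap] at h3
  cover e := by
    have h1 : ‖F e.1 - t₀‖ < ε := by
      rw [e.2, add_sub_cancel_left, norm_smul, Complex.norm_real, Real.norm_of_nonneg hA.pos.le]
      have := mem_ball_zero_iff.1 ht
      nlinarith [hA.pos]
    obtain ⟨i, z, hz, he⟩ := hA.cover e.1 h1
    have hz3 : z ∈ ball (0 : Cm (a + h)) 3 := ball_subset_ball (by norm_num) hz
    have h2 : F (S.σ (Fin.castLE hA.le i) z) = t₀ + (ε : ℂ) • t := by rw [he]; exact e.2
    have h3 := p1_eq hA hz3 h2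
    have h4 := ((H842.HKT.mem_ball_iff z 1).1 hz).2
    refine ⟨1, i, p2 z, mem_ball_zero_iff.1 h4, ?_⟩
    rw [fb_act]
    refine fb_ext ?_
    have h5 : ap t (p2 z) = z := by
      rw [← h3]
      exact H842.HKT.ap_p z
    rw [fbσ_val hA ht i (ball_subset_ball (by norm_num) h4), h5]
    exact he
  closed i r hr := by
    have h1 : {e : Fb F (t₀ + (ε : ℂ) • t) | ∃ (γ : One1) (z : Cm h), ‖z‖ ≤ r ∧
        γ • fbσ hA ht i z = e} = fbσ hA ht i '' closedBall 0 r := by
      ext e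
      constructor
      · rintro ⟨γ, z, hz, h2⟩
        exact ⟨z, mem_closedBall_zero_iff.2 hz, h2⟩
      · rintro ⟨z, hz, h2⟩
        exact ⟨1, z, mem_closedBall_zero_iff.1 hz, h2⟩
    rw [h1]
    refine ((isCompact_closedBall 0 r).image_of_continuousOn fun z hz => ?_).isClosed
    exact (fbσ_cont hA ht i (closedBall_subset_ball hr hz)).continuousWithinAt
  hol i j z hz w hw γ hh := by
    have h1 := congrArg Subtype.val hh
    have h1' : (fbσ hA ht i z).1 = (fbσ hA ht j w).1 := h1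
    rw [fbσ_val hA ht i hz, fbσ_val hA ht j hw] at h1'
    obtain ⟨θ, k1, k2, k3⟩ := S.hol _ _ _ (ap_mem3 ht hz) _ (ap_mem3 ht hw) 1
      (by rw [one_smul]; exact h1')
    have h3 : Continuous fun u : Cm h => ap t u :=
      (pe a h).symm.continuous.comp (continuous_const.prodMk continuous_id)
    have h3a : AnalyticAt ℂ (fun u : Cm h => ap t u) z := by
      have h5 : AnalyticAt ℂ (fun u : Cm h => (t, u)) z := analyticAt_const.prod analyticAt_id
      exact (((pe a h).symm : Cm a × Cm h →L[ℂ] Cm (a + h)).analyticAt _).fun_comp h5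
    have h4 : AnalyticAt ℂ (fun u : Cm h => θ (ap t u)) z := k1.fun_comp h3a
    refine ⟨fun u => p2 (θ (ap t u)), ?_, ?_, ?_⟩
    · exact ((ContinuousLinearMap.snd ℂ (Cm a) (Cm h)).comp
        (pe a h : Cm (a + h) →L[ℂ] Cm a × Cm h)).analyticAt _ |>.fun_comp h4
    · show p2 (θ (ap t z)) = w
      rw [k2, H842.HKT.p2_ap]
    · have e1 : ∀ᶠ u in 𝓝 z, θ (ap t u) ∈ ball (0 : Cm (a + h)) 3 :=
        h4.continuousAt (isOpen_ball.mem_nhds (by rw [k2]; exact ap_mem3 ht hw))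
      have e2 : ∀ᶠ u in 𝓝 z, S.σ (Fin.castLE hA.le i) (ap t u) =
          (1 : K) • S.σ (Fin.castLE hA.le j) (θ (ap t u)) := h3.continuousAt.eventually k3
      filter_upwards [e1, e2, isOpen_ball.mem_nhds hz] with u g1 g2 g3
      rw [fb_act]
      refine fb_ext ?_
      rw [one_smul] at g2
      have g4 : F (S.σ (Fin.castLE hA.le j) (θ (ap t u))) = t₀ + (ε : ℂ) • t := by
        rw [← g2, hA.eq i _ (ap_mem3 ht g3), H842.HKT.p1_ap]
      have g5 := p1_eq hA g1 g4
      rw [fbσ_val hA ht i g3, fbσ_val hA ht j ((H842.HKT.mem_ball_iff _ 3).1 g1).2, g2]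
      conv_lhs => rw [← H842.HKT.ap_p (θ (ap t u)), g5]

/-- The slice of a 2-form. -/
def sl (hA : Adp S F c t₀ ε n) (x : Fin S.N → Cm (a + h) → L2 (a + h)) (t : Cm a) :
    Fin n → Cm h → L2 h := fun i z => rs (x (Fin.castLE hA.le i) (ap t z))

/-- The slice of a metric, or of the matrices of a holomorphic 2-form. -/
def slm (hA : Adp S F c t₀ ε n) (w : Fin S.N → Cm (a + h) → Matrix (Fin (a + h)) (Fin (a + h)) ℂ)
    (t : Cm a) : Fin n → Cm h → Matrix (Fin h) (Fin h) ℂ :=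
  fun i z => (w (Fin.castLE hA.le i) (ap t z)).submatrix (Fin.natAdd a) (Fin.natAdd a)

end

end Vale.Agent.P281.H152.RC
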