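import Vale.Agent.P281.H152.RC.Plug
import Vale.Agent.P281.H152.RC.Alg0
import Vale.Agent.P281.H83.HKT.Fin

/-!
# P281, RADC (helper152): the rational radical in class C
-/

open Vale.Agent.P281 Vale.Agent.P281.H64 Vale.Agent.P281.H64.TK.TS Vale.Agent.P281.H83.HK
open Vale.Agent.P281.H83.HKT

noncomputable section

namespace Vale.Agent.P281.H152.RC

/-- **RADC** -/
theorem radC : RadCStmt := radC_in aMark aHI H89.HK.ht bBas alg0

end Vale.Agent.P281.H152.RC
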