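import Vale.Agent.P281.H702.HKT.GenC
import Vale.Agent.P281.H615.HKT.BasP

/-!
# P281, T-HKT for the class C (helper152): block G2, in the letters of helper615
-/

open Vale.Agent.P281

noncomputable section

namespace Vale.Agent.P281.H152.RC

theorem genPsi : H615.HKT.GenPsi := by
  intro a h d E K H _ _ _ _ _ _ _ _ _ _ _ _ S ψ l A had hh hH hP zero fin cpt
  have : Nonempty E := inferInstance
  refine H702.HKT.genU_psi had.symm hP ?_ hH
  obtain ⟨C, hC, h⟩ := cpt
  refine ⟨C, hC, fun z => ?_⟩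
  obtain ⟨k, hk⟩ := h z
  exact ⟨l k, ⟨k, rfl⟩, hk⟩

theorem basPsi : H615.HKT.BasPsi := H615.HKT.basPsi_of genPsi

end Vale.Agent.P281.H152.RC
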