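import Vale.Agent.P281.H152.RC.HktIn
import Vale.Agent.P281.H152.RC.GenPsi

/-!
# P281, T-HKT for the class C: the theorem
-/

noncomputable section

namespace Vale.Agent.P281.H152.RC

/-- **T-HKT for the class C** -/
theorem thktC : H225.HKT.THKTCStmt := thktC_in genPsi basPsi

end Vale.Agent.P281.H152.RC
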