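import Vale.Agent.P281.H152.RC.Fin
import Vale.Agent.P281.H511.HKT.FinG
import Vale.Agent.P281.H225.HKT.CoreC
import Vale.Agent.P281.H615.HKT.FibTCS
import Vale.Agent.P281.H603.C.TEFin

/-!
# P281, T-HKT for the class C (helper152): the theorem, from block G2
-/

open Vale.Agent.P281 Vale.Agent.P281.H64 Vale.Agent.P281.H64.TK.TS Vale.Agent.P281.H83.HK
open Vale.Agent.P281.H83.HKT

noncomputable section

namespace Vale.Agent.P281.H152.RC

theorem fTG : H225.HKT.FormTGStmt :=
  H511.HKT.formTG TK.inputs aForms formsT bPos bBil bPull bTwo bBas bThCmp (bPer bInd)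

theorem fTC (gen : H615.HKT.GenPsi) (bas : H615.HKT.BasPsi) : H225.HKT.FibTCStmt :=
  H615.HKT.fibTC_stmt TK.inputs.ab radC gen bas

theorem thktC_in (gen : H615.HKT.GenPsi) (bas : H615.HKT.BasPsi) : H225.HKT.THKTCStmt :=
  H225.HKT.thktC_of (bGlob bInd) fTG (fTC gen bas) bBad H383.KN.genN H737.Gen.exc H303.UF.crit
    H383.Gen.compl H485.Gen.har H383.U.liftT H383.C.cTameOK

end Vale.Agent.P281.H152.RC
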