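import Vale.Agent.P281.H152.RC.Defs

/-!
# P281, project RADC (helper152): statements of the blocks (FROZEN)
-/

open Set Filter Metric MeasureTheory Vale.Agent.P281 Vale.Agent.P281.H713 Vale.Agent.P272.K
open Vale.Agent.P281.MF Vale.Agent.P281.ISO Vale.Agent.P281.ELL Vale.Agent.P281.H713.TZ
open Vale.Agent.P281.H64.Thin (IsThinSet)
open Vale.Agent.P281.H64.Gen (IsSmallSet ImgLocStmt)
open Vale.Agent.P281.H64 (Mark)
open Vale.Agent.P281.H399.QT (Qs One1 pj quo)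
open scoped Topology ContDiff Manifold ComplexConjugate ComplexOrder

noncomputable section

namespace Vale.Agent.P281.H152.RC

open Vale.Agent.P281.H64.TK Vale.Agent.P281.H64.TK.TS Vale.Agent.P281.H83.HK
open Vale.Agent.P281.H83.HKT (dt uu thj lst W4 thl Hol1 GenU bT dF RatRad)
open Vale.Agent.P281.H842.HKT (p1 p2 ap pe)
open Vale.Agent.P281.H751.HKT (rs)

/-- **R1** (characters, Stokes, `span_mFourier_closure_eq_top`). -/
def CharStmt : Prop :=
  ∀ (a d : ℕ) (E K : Type) [TopologicalSpace E] [T2Space E] [SimplyConnectedSpace E] [Group K]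
    [MulAction K E] [ContinuousConstSMul K E] (S : Sheets d E K)
    (w : Fin S.N → Cm d → Matrix (Fin d) (Fin d) ℂ) (M : Mark K (a + a)) (F : E → Fin a → ℂ)
    (c : K → Fin a → ℂ) (φ : Cm a → ℂ) (x y k : Fin S.N → Cm d → L2 d), a + 2 ≤ d → Kah S w →
    IsBas S F c → Continuous φ → (∀ t γ, φ (t + c γ) = φ t) → Cl2 (quo S) x → Cl2 (quo S) y →
    Cl2 (quo S) k →
    bT (quo S) (dF S F) k k k *
      (quo S).int (fun i z => φ (F (S.σ i z)) * W4 (dF S F i z) (x i z) (y i z) (k i z)) =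
    bT (quo S) (dF S F) x y k *
      (quo S).int (fun i z => φ (F (S.σ i z)) * W4 (dF S F i z) (k i z) (k i z) (k i z))

/-- **R2** (Sard = `ImgLocStmt`; the inverse function theorem; compactness; sheets `S'` = adapted
sheets, followed by those of `S`). -/
def AdpStmt : Prop :=
  ∀ (a h : ℕ) (E K : Type) [TopologicalSpace E] [T2Space E] [Group K]
    [MulAction K E] [ContinuousConstSMul K E] (S : Sheets (a + h) E K) (F : E → Fin a → ℂ)
    (c : K → Fin a → ℂ), 0 < h → (∀ j, Add S (fun e => F e j) (fun γ => c γ j)) →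
    (∀ R : ℝ, {k : K | ‖c k‖ ≤ R}.Finite) → (∀ k, c k = 0 → k = 1) →
    (∃ i, ∃ z ∈ ball (0 : Cm (a + h)) 3,
      Function.Surjective fun ξ : Cm (a + h) => (dF S F i z).mulVec ξ) →
    ∃ (t₀ : Cm a) (ε : ℝ) (n : ℕ) (S' : Sheets (a + h) E K), Adp S' F c t₀ ε n ∧ n + S.N = S'.N ∧
      ∀ (i : Fin S.N) (i' : Fin S'.N), i'.val = n + i.val → S'.σ i' = S.σ i

/-- **R3** (transport): more sheets of the same manifold. -/
def XferStmt : Prop :=
  ∀ (a d : ℕ) (E K : Type) [TopologicalSpace E] [T2Space E] [Group K]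
    [MulAction K E] [ContinuousConstSMul K E] (S S' : Sheets d E K) (F : E → Fin a → ℂ)
    (c : K → Fin a → ℂ) (w : Fin S.N → Cm d → Matrix (Fin d) (Fin d) ℂ) (n : ℕ), a + 2 ≤ d →
    IsBas S F c → Kah S w → n + S.N = S'.N →
    (∀ (i : Fin S.N) (i' : Fin S'.N), i'.val = n + i.val → S'.σ i' = S.σ i) →
    IsBas S' F c ∧
    (∀ s, GenU (quo S) (dF S F) s → ∃ s', GenU (quo S') (dF S' F) s') ∧
    ∃ w' : Fin S'.N → Cm d → Matrix (Fin d) (Fin d) ℂ, Kah S' w' ∧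
      (RatRad (quo S') (dF S' F) (kw w') → RatRad (quo S) (dF S F) (kw w))

/-- **R4**: slices of forms (they are the pull-backs to the fibre, `fun e => pj K (inF F _ e)`). -/
def SliceStmt : Prop :=
  ∀ (a h : ℕ) (E K : Type) [TopologicalSpace E] [T2Space E] [Group K]
    [MulAction K E] [ContinuousConstSMul K E] (S : Sheets (a + h) E K) (F : E → Fin a → ℂ)
    (c : K → Fin a → ℂ) (t₀ : Cm a) (ε : ℝ) (n : ℕ) (hA : Adp S F c t₀ ε n) (t : Cm a)
    (ht : t ∈ ball (0 : Cm a) 1),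
    (∀ x : Fin S.N → Cm (a + h) → L2 (a + h), Cl2 (quo S) x → Cl2 (fibS hA ht) (sl hA x t)) ∧
    (∀ x : Fin S.N → Cm (a + h) → L2 (a + h), Real2 (quo S) x →
      Real2 (fibS hA ht) (sl hA x t)) ∧
    (∀ x : Fin S.N → Cm (a + h) → L2 (a + h), Cl2 (quo S) x → IsInt (quo S) x →
      IsInt (fibS hA ht) (sl hA x t)) ∧
    (∀ x : Fin S.N → Cm (a + h) → L2 (a + h), Cl2 (quo S) x → Exact (quo S) x →
      Exact (fibS hA ht) (sl hA x t)) ∧
    (∀ w : Fin S.N → Cm (a + h) → Matrix (Fin (a + h)) (Fin (a + h)) ℂ, Kah S w →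
      Kah (fibS hA ht) (slm hA w t)) ∧
    (∀ s : Fin S.N → Cm (a + h) → Matrix (Fin (a + h)) (Fin (a + h)) ℂ, Hol2 (quo S) s →
      Hol2 (fibS hA ht) (slm hA s t)) ∧
    (∀ w : Fin S.N → Cm (a + h) → Matrix (Fin (a + h)) (Fin (a + h)) ℂ,
      sl hA (kw w) t = kw (slm hA w t) ∧ sl hA (ts w) t = ts (slm hA w t) ∧
      sl hA (cjs (ts w)) t = cjs (ts (slm hA w t)))

/-- The slice at `t` of the fundamental domain. -/
def PF {a h : ℕ} {E K : Type} [TopologicalSpace E] [Group K] [MulAction K E]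
    {S : Sheets (a + h) E K} {F : E → Fin a → ℂ} {c : K → Fin a → ℂ} {t₀ : Cm a} {ε : ℝ} {n : ℕ}
    (hA : Adp S F c t₀ ε n) (i : Fin n) (t : Cm a) : Set (Cm h) :=
  {z | ap t z ∈ S.P (Fin.castLE hA.le i)}

/-- **R5** (Fubini). -/
def FubStmt : Prop :=
  ∀ (a h : ℕ) (E K : Type) [TopologicalSpace E] [T2Space E] [Group K]
    [MulAction K E] [ContinuousConstSMul K E] (S : Sheets (a + h) E K) (F : E → Fin a → ℂ)
    (c : K → Fin a → ℂ) (t₀ : Cm a) (ε : ℝ) (n : ℕ) (hA : Adp S F c t₀ ε n),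
    (∀ (t : Cm a) (ht : t ∈ ball (0 : Cm a) 1) (i : Fin n), PF hA i t = (fibS hA ht).P i) ∧
    (∀ (i : Fin n) (D : Cm (a + h) → ℂ), ContinuousOn D (ball 0 3) →
      IntegrableOn (fun t => ∫ z in PF hA i t, D (ap t z)) (ball 0 1) ∧
      ∫ z in S.P (Fin.castLE hA.le i), D z =
        ∫ t in ball (0 : Cm a) 1, ∫ z in PF hA i t, D (ap t z)) ∧
    ∀ (φ : Cm a → ℂ) (D : Fin S.N → Cm (a + h) → ℂ), Continuous φ →
      (∀ t k, φ (t + c k) = φ t) → (∀ t, (∀ k, ε ≤ ‖t + c k - t₀‖) → φ t = 0) →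
      (∀ i, ContinuousOn (D i) (ball 0 3)) →
      S.int (fun i z => φ (F (S.σ i z)) * D i z) = ∫ t in ball (0 : Cm a) 1,
        φ (t₀ + (ε : ℂ) • t) * ∑ i : Fin n, ∫ z in PF hA i t, D (Fin.castLE hA.le i) (ap t z)

/-- **R5a** (from helper751's `Rs`): the algebra in an adapted sheet. -/
def AlgStmt : Prop :=
  ∀ (a h : ℕ) (ε : ℝ) (u : Matrix (Fin a) (Fin (a + h)) ℂ), 2 ≤ h → 0 < ε →
    (∀ j k, u j (Fin.castAdd h k) = if j = k then (ε : ℂ) else 0) →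
    (∀ j k, u j (Fin.natAdd a k) = 0) → ∀ x y k : L2 (a + h),
      W4 u x y k = ((ε ^ (2 * a) : ℝ) : ℂ) * W3 (rs x) (rs y) (rs k)

/-- **R5b** (from R1, R5, R5a; functions `φ` supported in the ball). -/
def PropStmt : Prop :=
  ∀ (a h : ℕ) (E K : Type) [TopologicalSpace E] [T2Space E] [SimplyConnectedSpace E] [Group K]
    [MulAction K E] [ContinuousConstSMul K E] (S : Sheets (a + h) E K)
    (w : Fin S.N → Cm (a + h) → Matrix (Fin (a + h)) (Fin (a + h)) ℂ) (M : Mark K (a + a))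
    (F : E → Fin a → ℂ) (c : K → Fin a → ℂ) (t₀ : Cm a) (ε : ℝ) (n : ℕ)
    (hA : Adp S F c t₀ ε n) (x y : Fin S.N → Cm (a + h) → L2 (a + h)), 2 ≤ h → Kah S w →
    IsBas S F c → (∀ R : ℝ, {k : K | ‖c k‖ ≤ R}.Finite) → Cl2 (quo S) x → Cl2 (quo S) y →
    ∀ᵐ t : Cm a, ∀ ht : t ∈ ball (0 : Cm a) 1,
      bT (quo S) (dF S F) (kw w) (kw w) (kw w) *
        bW (fibS hA ht) (sl hA x t) (sl hA y t) (kw (slm hA w t)) =
      bT (quo S) (dF S F) x y (kw w) *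
        bW (fibS hA ht) (kw (slm hA w t)) (kw (slm hA w t)) (kw (slm hA w t))

/-- **R6** (from `HTStmt`, R5 for the `L²` error): the (2,0) part, on `E / K` and on almost all
fibres. -/
def HTsStmt : Prop :=
  ∀ (a h : ℕ) (E K : Type) [TopologicalSpace E] [T2Space E] [SimplyConnectedSpace E] [Group K]
    [MulAction K E] [ContinuousConstSMul K E] (S : Sheets (a + h) E K)
    (w : Fin S.N → Cm (a + h) → Matrix (Fin (a + h)) (Fin (a + h)) ℂ)
    (F : E → Fin a → ℂ) (c : K → Fin a → ℂ) (t₀ : Cm a) (ε : ℝ) (n : ℕ)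
    (hA : Adp S F c t₀ ε n) (x : Fin S.N → Cm (a + h) → L2 (a + h)), 2 ≤ h → Kah S w →
    Cl2 (quo S) x → ∃ s : Fin S.N → Cm (a + h) → Matrix (Fin (a + h)) (Fin (a + h)) ℂ,
      Hol2 (quo S) s ∧
      (∀ (u : Fin S.N → Cm (a + h) → Matrix (Fin a) (Fin (a + h)) ℂ) s', Hol1 (quo S) u →
        Hol2 (quo S) s' → bT (quo S) u x (cjs (ts s')) (kw w) =
          bT (quo S) u (ts s) (cjs (ts s')) (kw w)) ∧
      ∀ᵐ t : Cm a, ∀ ht : t ∈ ball (0 : Cm a) 1, ∀ s', Hol2 (fibS hA ht) s' →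
        bW (fibS hA ht) (sl hA x t) (cjs (ts s')) (kw (slm hA w t)) =
          bW (fibS hA ht) (ts (slm hA s t)) (cjs (ts s')) (kw (slm hA w t))

/-- **R7** (from `HIStmt`, `MarkStmt`, POS, R4, R5b, R6). -/
def RadSStmt : Prop :=
  ∀ (a h : ℕ) (E K : Type) [TopologicalSpace E] [T2Space E] [SimplyConnectedSpace E] [Group K]
    [MulAction K E] [ContinuousConstSMul K E] (S : Sheets (a + h) E K)
    (w : Fin S.N → Cm (a + h) → Matrix (Fin (a + h)) (Fin (a + h)) ℂ) (M : Mark K (a + a))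
    (F : E → Fin a → ℂ) (c : K → Fin a → ℂ) (t₀ : Cm a) (ε : ℝ) (n : ℕ)
    (_ : Adp S F c t₀ ε n), 2 ≤ h → Kah S w →
    IsBas S F c → (∀ R : ℝ, {k : K | ‖c k‖ ≤ R}.Finite) → (∃ s, GenU (quo S) (dF S F) s) →
    (∃ H : ℕ → Set (Cm a), (∀ k, IsThinSet (Cm a) (H k)) ∧ ∀ t, (∀ k, t ∉ H k) →
      IsPreconnected (F ⁻¹' {t})) → RatRad (quo S) (dF S F) (kw w)

/-- **RADC** (from R2, R3, R7): the radical is rational. -/
def RadCStmt : Prop :=
  ∀ (a h : ℕ) (E K : Type) [TopologicalSpace E] [T2Space E] [SimplyConnectedSpace E] [Group K]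
    [MulAction K E] [ContinuousConstSMul K E] (S : Sheets (a + h) E K)
    (w : Fin S.N → Cm (a + h) → Matrix (Fin (a + h)) (Fin (a + h)) ℂ) (M : Mark K (a + a))
    (F : E → Fin a → ℂ) (c : K → Fin a → ℂ), 2 ≤ h → Kah S w → IsBas S F c →
    (∀ R : ℝ, {k : K | ‖c k‖ ≤ R}.Finite) → (∀ k, c k = 0 → k = 1) →
    (∃ s, GenU (quo S) (dF S F) s) →
    (∃ H : ℕ → Set (Cm a), (∀ k, IsThinSet (Cm a) (H k)) ∧ ∀ t, (∀ k, t ∉ H k) →
      IsPreconnected (F ⁻¹' {t})) → RatRad (quo S) (dF S F) (kw w)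

end Vale.Agent.P281.H152.RC
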