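import Vale.Agent.P281.H152.RC.RadS
import Vale.Agent.P281.H22.HKT.Adp
import Vale.Agent.P281.H118.RC.Xfer
import Vale.Agent.P281.H751.HKT.SliceR
import Vale.Agent.P281.H225.RC.Prop
import Vale.Agent.P281.H747.HKT.HTs
import Vale.Agent.P281.H747.HKT.PosT
import Vale.Agent.P281.H751.HKT.BasT
import Vale.Agent.P281.H191.RC.Char
import Vale.Agent.P281.H406.HK.Forms
import Vale.Agent.P281.H747.HK.Pos

/-!
# P281, RADC (helper152): the rational radical in class C, from the general inputs
-/

open Vale.Agent.P281 Vale.Agent.P281.H64 Vale.Agent.P281.H64.TK.TS Vale.Agent.P281.H83.HK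
open Vale.Agent.P281.H83.HKT

noncomputable section

namespace Vale.Agent.P281.H152.RC

theorem radC_in (hMk : MarkStmt) (hHI : HIStmt) (hHT : HTStmt) (hB : BasTStmt) (hAlg : AlgStmt) :
    RadCStmt :=
  radC_of H22.HKT.adp H118.RC.xfer
    (radS hMk H406.HK.forms (H747.HK.pos H406.HK.forms) (H747.HKT.posTStmt H406.HK.forms) hHI
      H751.HKT.R.slice (H225.RC.prop_of (H191.RC.char hB) hAlg)
      (H747.HKT.hts hHT H406.HK.forms H751.HKT.R.slice))

end Vale.Agent.P281.H152.RC
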